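import Vale.Agent.P080C1.Props
import Vale.Agent.P080.Basic

/-!
Cones: comparison with cones for viscosity solutions on open sets, and the interior Lipschitz
bound in terms of the oscillation.
-/

noncomputable section

open Filter Topology Metric Set
open scoped RealInnerProductSpace

namespace Vale.Agent.P080C1

variable {O U : Set E3} {u : E3 → ℝ}

theorem IsInfHarmonicOn.mono (h : IsInfHarmonicOn O u) (hUO : U ⊆ O) : IsInfHarmonicOn U u :=
  ⟨h.1.mono hUO, fun φ z hz hφ => h.2 φ z (hUO hz) hφ⟩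

theorem IsInfHarmonicOn.neg (h : IsInfHarmonicOn O u) : IsInfHarmonicOn O fun x => -u x := by
  refine ⟨h.1.neg, fun φ z hz hφ => ?_⟩
  have hn : P080.infLap (fun x => -φ x) z = -P080.infLap φ z := P080.infLap_neg φ z
  have h' := h.2 (fun x => -φ x) z hz hφ.neg
  constructor
  · intro hm
    have : IsLocalMin (fun x => u x - -φ x) z := by
      simpa [sub_eq_add_neg, neg_add_rev, add_comm] using hm.neg
    linarith [h'.2 this]
  · intro hm
    have : IsLocalMax (fun x => u x - -φ x) z := by
      simpa [sub_eq_add_neg, neg_add_rev, add_comm] using hm.neg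
    linarith [h'.1 this]

theorem not_mem_of_mem_frontier (hU : IsOpen U) {z : E3} (hz : z ∈ frontier U) : z ∉ U := by
  rw [hU.frontier_eq] at hz
  exact hz.2

theorem isCompact_frontier_of_bounded (hUb : Bornology.IsBounded U) : IsCompact (frontier U) :=
  hUb.isCompact_closure.of_isClosed_subset isClosed_frontier frontier_subset_closure

/-- Comparison with cones from above. -/
theorem cone_le (h : IsInfHarmonicOn U u) (hUb : Bornology.IsBounded U) (hU : IsOpen U)
    (hc : ContinuousOn u (closure U)) {p : E3} {c K : ℝ} (hK : 0 ≤ K)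
    (hb : ∀ z ∈ frontier U, u z ≤ c + K * ‖z - p‖) (hp : p ∈ U → u p ≤ c) :
    ∀ x ∈ closure U, u x ≤ c + K * ‖x - p‖ := by
  obtain ⟨D, hD0, hD⟩ : ∃ D, 0 < D ∧ ∀ x ∈ closure U, ‖x - p‖ < D := by
    obtain ⟨D, hD⟩ := hUb.isCompact_closure.exists_bound_of_continuousOn
      (f := fun x : E3 => x - p) (continuousOn_id.sub continuousOn_const)
    exact ⟨max D 0 + 1, by linarith [le_max_right D 0],
      fun x hx => by linarith [hD x hx, le_max_left D 0]⟩
  intro x hx
  refine le_of_forall_pos_le_add fun t ht => ?_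
  obtain ⟨s, hs, hst⟩ : ∃ s, 0 < s ∧ s * D ≤ t := ⟨t / D, div_pos ht hD0, by field_simp; rfl⟩
  set μ := s / (4 * D) with hμ
  have hμ0 : 0 < μ := by positivity
  have hμD : μ * (4 * D) = s := div_mul_cancel₀ _ (by positivity)
  set φ : E3 → ℝ := fun y => c + (K + s) * ‖y - p‖ - μ * ‖y - p‖ ^ 2 with hφ
  have hlow : ∀ y ∈ closure U, c + K * ‖y - p‖ ≤ φ y := by
    intro y hy
    have h1 : μ * ‖y - p‖ ≤ μ * D := mul_le_mul_of_nonneg_left (hD y hy).le hμ0.le
    have h2 : μ * ‖y - p‖ * ‖y - p‖ ≤ s * ‖y - p‖ :=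
      mul_le_mul_of_nonneg_right (by nlinarith) (norm_nonneg _)
    simp only [φ]
    nlinarith
  obtain ⟨z, hz, hmax⟩ := hUb.isCompact_closure.exists_isMaxOn ⟨x, hx⟩
    (hc.sub (by fun_prop : ContinuousOn φ (closure U)))
  have hzle : u z ≤ φ z := by
    by_cases hzU : z ∈ U
    · by_cases hzp : z = p
      · subst hzp
        simpa [φ] using hp hzU
      · have ha : 2 * μ * ‖z - p‖ < K + s := by nlinarith [hD z hz]
        obtain ⟨hφ2, hneg⟩ := P080.infLap_cone (c := c) hzp hμ0 ha
        have hm : IsLocalMax (fun y => u y - φ y) z :=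
          hmax.isLocalMax (mem_of_superset (hU.mem_nhds hzU) subset_closure)
        linarith [(h.2 φ z hzU hφ2).1 hm]
    · exact (hb z (by rw [hU.frontier_eq]; exact ⟨hz, hzU⟩)).trans (hlow z hz)
  have hle : u x - φ x ≤ u z - φ z := hmax hx
  have : φ x ≤ c + K * ‖x - p‖ + t := by
    simp only [φ]
    nlinarith [hD x hx, norm_nonneg (x - p), mul_nonneg hμ0.le (sq_nonneg ‖x - p‖)]
  linarith

/-- Comparison with cones on balls. -/
theorem cone_le_ball (h : IsInfHarmonicOn O u) {p : E3} {r K : ℝ} (hr : 0 < r) (hK : 0 ≤ K)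
    (hO : closedBall p r ⊆ O) (hb : ∀ z ∈ sphere p r, u z ≤ u p + K * r) :
    ∀ x ∈ closedBall p r, u x ≤ u p + K * ‖x - p‖ := by
  have hcl : closure (ball p r) = closedBall p r := closure_ball p hr.ne'
  intro x hx
  refine cone_le (h.mono (ball_subset_closedBall.trans hO)) isBounded_ball isOpen_ball
    (hcl ▸ h.1.mono hO) hK (fun z hz => ?_) (fun _ => le_rfl) x (hcl ▸ hx)
  rw [frontier_ball p hr.ne'] at hz
  rw [mem_sphere_iff_norm.1 hz]
  exact hb z hz

/-- Slopes increase: the slope from `a` to `b` is attained on every larger sphere around `a`. -/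
theorem exists_sphere_slope (h : IsInfHarmonicOn O u) {a b : E3} {R s : ℝ}
    (hR : ‖b - a‖ ≤ R) (hs : 0 < s) (hO : closedBall a R ⊆ O) (hab : s * ‖b - a‖ < u b - u a) :
    ∃ z ∈ sphere a R, s * R ≤ u z - u a := by
  have hR0 : 0 < R := by
    rcases eq_or_ne b a with rfl | hne
    · simp at hab
    · exact lt_of_lt_of_le (norm_pos_iff.2 (sub_ne_zero.2 hne)) hR
  by_contra hno
  simp only [not_exists, not_and, not_le] at hno
  have := cone_le_ball h hR0 hs.le hO (fun z hz => by linarith [hno z hz]) b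
    (mem_closedBall_iff_norm.2 hR)
  linarith

/-- A bound on the oscillation over `S` bounds the slopes from points `a` with
`closedBall a d ⊆ S`. -/
theorem sub_le_of_osc_on (h : IsInfHarmonicOn O u) {S : Set E3} (hS : S ⊆ O) {d M : ℝ}
    (hd : 0 < d) (hM : ∀ a ∈ S, ∀ b ∈ S, u a - u b ≤ M) {a b : E3} (ha : closedBall a d ⊆ S)
    (hb : b ∈ S) : u b - u a ≤ M / d * ‖b - a‖ := by
  have haS : a ∈ S := ha (mem_closedBall_self hd.le)
  have hM0 : 0 ≤ M := by simpa using hM a haS a haS
  rcases le_total ‖b - a‖ d with hab | hab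
  · have := cone_le_ball h hd (div_nonneg hM0 hd.le) (ha.trans hS) (fun z hz => ?_) b
      (mem_closedBall_iff_norm.2 hab)
    · linarith
    · rw [div_mul_cancel₀ M hd.ne']
      linarith [hM z (ha (sphere_subset_closedBall hz)) a haS]
  · have h1 : u b - u a ≤ M := hM b hb a haS
    have h2 := mul_le_mul_of_nonneg_left hab (div_nonneg hM0 hd.le)
    rw [div_mul_cancel₀ M hd.ne'] at h2
    linarith

/-- Interior Lipschitz bound in terms of the oscillation. -/
theorem sub_le_of_osc (h : IsInfHarmonicOn O u) {x : E3} {r M : ℝ} (hr : 0 < r)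
    (hO : closedBall x (2 * r) ⊆ O)
    (hM : ∀ a ∈ closedBall x (2 * r), ∀ b ∈ closedBall x (2 * r), u a - u b ≤ M)
    {a b : E3} (ha : a ∈ closedBall x r) (hb : b ∈ closedBall x r) :
    u b - u a ≤ M / r * ‖b - a‖ :=
  sub_le_of_osc_on h hO hr hM
    (closedBall_subset_closedBall' (by linarith [mem_closedBall.1 ha]))
    (closedBall_subset_closedBall (by linarith) hb)

/-- Infinity-harmonic functions are locally Lipschitz, with constant `osc / dist`. -/
theorem lipschitzOnWith_of_osc (h : IsInfHarmonicOn O u) {x : E3} {r M : ℝ} (hr : 0 < r)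
    (hO : closedBall x (2 * r) ⊆ O)
    (hM : ∀ a ∈ closedBall x (2 * r), ∀ b ∈ closedBall x (2 * r), u a - u b ≤ M) :
    LipschitzOnWith (Real.toNNReal (M / r)) u (closedBall x r) := by
  have hM0 : 0 ≤ M := by
    simpa using hM x (mem_closedBall_self (by linarith)) x (mem_closedBall_self (by linarith))
  refine LipschitzOnWith.of_dist_le_mul fun a ha b hb => ?_
  rw [Real.coe_toNNReal _ (div_nonneg hM0 hr.le), Real.dist_eq, dist_eq_norm, abs_le]
  have h1 := sub_le_of_osc h hr hO hM ha hb
  have h2 := sub_le_of_osc h hr hO hM hb ha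
  rw [norm_sub_rev b a] at h1
  constructor <;> linarith

theorem lipBoundProp : LipBoundProp := by
  refine ⟨2, two_pos, fun O u x r M _ h hr hO hM a ha b hb => ?_⟩
  have key : ∀ a ∈ closedBall x (3 / 2 * r), ∀ b ∈ closedBall x (3 / 2 * r),
      u b - u a ≤ 2 * M / r * ‖b - a‖ := fun a ha b hb => by
    refine (sub_le_of_osc_on h hO (d := r / 2) (by linarith) hM
      (closedBall_subset_closedBall' (by linarith [mem_closedBall.1 ha]))
      (closedBall_subset_closedBall (by linarith) hb)).trans (le_of_eq ?_)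
    field_simp
  rw [abs_le]
  have h1 := key a ha b hb
  have h2 := key b hb a ha
  rw [norm_sub_rev b a] at h1
  constructor <;> linarith

end Vale.Agent.P080C1
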