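import Vale.Agent.P080C1.Cones.Basic

/-!
Comparison of viscosity solutions, after Armstrong and Smart: the maximum of `u` over closed
`ε`-balls is a subsolution of the finite difference equation, for which comparison is elementary.
-/

noncomputable section

open Filter Topology Metric Set
open scoped RealInnerProductSpace

namespace Vale.Agent.P080C1

variable {O U : Set E3} {u : E3 → ℝ}

theorem IsInfHarmonicOn.congr {u' : E3 → ℝ} (h : IsInfHarmonicOn U u) (hU : IsOpen U)
    (he : EqOn u' u U) : IsInfHarmonicOn U u' := by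
  refine ⟨h.1.congr he, fun φ z hz hφ => ?_⟩
  have hev : (fun x => u' x - φ x) =ᶠ[𝓝 z] fun x => u x - φ x :=
    Filter.eventually_of_mem (hU.mem_nhds hz) fun x hx =>
      show u' x - φ x = u x - φ x by rw [he hx]
  exact ⟨fun hm => (h.2 φ z hz hφ).1 (hm.congr hev),
    fun hm => (h.2 φ z hz hφ).2 (hm.congr hev)⟩

/-- The supremum over the closed ball of radius `ε` around a point. -/
def ballSup (f : E3 → ℝ) (ε : ℝ) (x : E3) : ℝ :=
  sSup ((fun h => f (x + h)) '' closedBall (0 : E3) ε)

theorem continuous_ballSup {f : E3 → ℝ} (hf : Continuous f) (ε : ℝ) :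
    Continuous (ballSup f ε) :=
  (isCompact_closedBall (0 : E3) ε).continuous_sSup
    (f := fun x h => f (x + h)) (hf.comp (continuous_fst.add continuous_snd))

theorem le_ballSup {f : E3 → ℝ} (hf : Continuous f) {ε : ℝ} {x y : E3}
    (hy : y ∈ closedBall x ε) : f y ≤ ballSup f ε x :=
  le_csSup ((isCompact_closedBall (0 : E3) ε).bddAbove_image (by fun_prop))
    ⟨y - x, by simpa [dist_eq_norm] using hy, by simp⟩

theorem ballSup_le {f : E3 → ℝ} {ε C : ℝ} (hε : 0 ≤ ε) {x : E3}
    (h : ∀ y ∈ closedBall x ε, f y ≤ C) : ballSup f ε x ≤ C := by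
  refine csSup_le ((nonempty_closedBall.2 hε).image _) ?_
  rintro _ ⟨k, hk, rfl⟩
  exact h _ (by simpa [mem_closedBall_iff_norm] using hk)

theorem exists_eq_ballSup {f : E3 → ℝ} (hf : Continuous f) {ε : ℝ} (hε : 0 ≤ ε) (x : E3) :
    ∃ y ∈ closedBall x ε, f y = ballSup f ε x := by
  obtain ⟨y, hy, hmax⟩ := (isCompact_closedBall x ε).exists_isMaxOn
    (nonempty_closedBall.2 hε) hf.continuousOn
  exact ⟨y, hy, le_antisymm (le_ballSup hf hy) (ballSup_le hε hmax)⟩

/-- The supremum over `ε`-balls of an infinity-harmonic function is a subsolution of the finite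
difference infinity Laplace equation. -/
theorem two_mul_ballSup_le (h : IsInfHarmonicOn O u) (hu : Continuous u) {ε : ℝ} (hε : 0 < ε)
    {x : E3} (hO : closedBall x (2 * ε) ⊆ O) {y : E3} (hy : y ∈ closedBall x ε) :
    2 * ballSup u ε x ≤ ballSup (ballSup u ε) ε x + ballSup u ε y := by
  have hux : u x ≤ ballSup u (2 * ε) x := le_ballSup hu (mem_closedBall_self (by linarith))
  set K := (ballSup u (2 * ε) x - u x) / (2 * ε) with hK
  have hK2 : K * (2 * ε) = ballSup u (2 * ε) x - u x := div_mul_cancel₀ _ (by positivity)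
  have hK0 : 0 ≤ K := div_nonneg (by linarith) (by linarith)
  have hhalf : ballSup u ε x ≤ u x + K * ε := by
    refine ballSup_le hε.le fun a ha => ?_
    have h1 := cone_le_ball h (by linarith : 0 < 2 * ε) hK0 hO
      (fun z hz => by linarith [le_ballSup hu (sphere_subset_closedBall hz)]) a
      (closedBall_subset_closedBall (by linarith) ha)
    linarith [mul_le_mul_of_nonneg_left (mem_closedBall_iff_norm.1 ha) hK0]
  have hbig : ballSup u (2 * ε) x ≤ ballSup (ballSup u ε) ε x := by
    refine ballSup_le (by linarith) fun a ha => ?_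
    rw [mem_closedBall_iff_norm] at ha
    have hm : x + (1 / 2 : ℝ) • (a - x) ∈ closedBall x ε := by
      rw [mem_closedBall_iff_norm, add_sub_cancel_left, norm_smul,
        Real.norm_of_nonneg (by norm_num)]
      linarith
    have ha' : a ∈ closedBall (x + (1 / 2 : ℝ) • (a - x)) ε := by
      rw [mem_closedBall_iff_norm,
        show a - (x + (1 / 2 : ℝ) • (a - x)) = (1 / 2 : ℝ) • (a - x) by module, norm_smul,
        Real.norm_of_nonneg (by norm_num)]
      linarith
    exact (le_ballSup hu ha').trans (le_ballSup (continuous_ballSup hu ε) hm)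
  have hy' : u x ≤ ballSup u ε y := le_ballSup hu (mem_closedBall_comm.1 hy)
  linarith

/-- The finite difference comparison: the sum of two subsolutions attains its maximum over a
compact set at some point whose `2ε`-ball is not inside the domain. -/
theorem exists_max_near_compl {v p : E3 → ℝ} (hv : Continuous v) (hp : Continuous p)
    {K : Set E3} (hK : IsCompact K) (hne : K.Nonempty) (hUK : U ⊆ K) {ε : ℝ} (hε : 0 < ε)
    (hsv : ∀ x, closedBall x (2 * ε) ⊆ U → ∀ y ∈ closedBall x ε,
      2 * v x ≤ ballSup v ε x + v y)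
    (hsp : ∀ x, closedBall x (2 * ε) ⊆ U → ∀ y ∈ closedBall x ε,
      2 * p x ≤ ballSup p ε x + p y) :
    ∃ x ∈ K, (∀ y ∈ K, v y + p y ≤ v x + p x) ∧ ¬ closedBall x (2 * ε) ⊆ U := by
  by_contra hno
  simp only [not_exists, not_and, not_not] at hno
  obtain ⟨x₁, hx₁, hmax₁⟩ := hK.exists_isMaxOn hne (hv.add hp).continuousOn
  set A := K ∩ {x | v x + p x = v x₁ + p x₁} with hA
  have hAc : IsCompact A := hK.inter_right (isClosed_eq (hv.add hp) continuous_const)
  obtain ⟨x₂, hx₂, hmax₂⟩ := hAc.exists_isMaxOn ⟨x₁, hx₁, rfl⟩ hv.continuousOn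
  set F := A ∩ {x | v x = v x₂} with hF
  have hFc : IsCompact F := hAc.inter_right (isClosed_eq hv continuous_const)
  obtain ⟨x, ⟨⟨hxK, hxm⟩, hxv⟩, hmax₃⟩ := hFc.exists_isMaxOn ⟨x₂, hx₂, rfl⟩
    (by fun_prop : Continuous fun x : E3 => x 0).continuousOn
  simp only [mem_ofPred_eq] at hxm hxv
  have hm : ∀ y ∈ K, v y + p y ≤ v x + p x := fun y hy => hxm ▸ hmax₁ hy
  have hB2 : closedBall x (2 * ε) ⊆ U := hno x hxK hm
  have hBK : closedBall x ε ⊆ K :=
    ((closedBall_subset_closedBall (by linarith)).trans hB2).trans hUK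
  obtain ⟨y₁, hy₁, hv₁⟩ := exists_eq_ballSup hv hε.le x
  obtain ⟨y₂, hy₂, hp₂⟩ := exists_eq_ballSup hp hε.le x
  have hx : x ∈ closedBall x ε := mem_closedBall_self hε.le
  have a1 := hsp x hB2 y₁ hy₁
  have a2 := hsv x hB2 y₂ hy₂
  have a3 := hm y₁ (hBK hy₁)
  have a4 := hm y₂ (hBK hy₂)
  have a5 := le_ballSup hv hx
  have a6 := le_ballSup hp hx
  have hy₁A : y₁ ∈ A := ⟨hBK hy₁, show v y₁ + p y₁ = v x₁ + p x₁ by linarith⟩
  have a7 : v y₁ ≤ v x₂ := hmax₂ hy₁A
  -- no increase is possible, so both functions are constant on the ball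
  have hmem : x + ε • ee 0 ∈ closedBall x ε := by
    simp [norm_smul, ee, abs_of_pos hε]
  have b1 := hsv x hB2 _ hmem
  have b2 := hsp x hB2 _ hmem
  have b3 := le_ballSup hv hmem
  have b4 := le_ballSup hp hmem
  have hF' : x + ε • ee 0 ∈ F :=
    ⟨⟨hBK hmem, show v (x + ε • ee 0) + p (x + ε • ee 0) = v x₁ + p x₁ by linarith⟩,
      show v (x + ε • ee 0) = v x₂ by linarith⟩
  have hle : (x + ε • ee 0 : E3) 0 ≤ x 0 := hmax₃ hF'
  simp [ee] at hle
  linarith

theorem comparisonProp : ComparisonProp := by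
  intro U u w c hU hUb hhu hhw hu hw hbd x₀ hx₀
  obtain ⟨gu, hgu⟩ := ContinuousMap.exists_restrict_eq (isClosed_closure (s := U))
    ⟨(closure U).domRestrict u, continuousOn_iff_continuous_domRestrict.1 hu⟩
  obtain ⟨gw, hgw⟩ := ContinuousMap.exists_restrict_eq (isClosed_closure (s := U))
    ⟨(closure U).domRestrict w, continuousOn_iff_continuous_domRestrict.1 hw⟩
  have egu : EqOn gu u (closure U) := fun x hx => DFunLike.congr_fun hgu ⟨x, hx⟩
  have egw : EqOn gw w (closure U) := fun x hx => DFunLike.congr_fun hgw ⟨x, hx⟩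
  have hhu' : IsInfHarmonicOn U gu := hhu.congr hU (egu.mono subset_closure)
  have hhw' : IsInfHarmonicOn U fun x => -gw x := (hhw.congr hU (egw.mono subset_closure)).neg
  refine le_of_forall_pos_le_add fun η hη => ?_
  set g : E3 → ℝ × ℝ := fun x => (gu x, gw x)
  have hunif := (isCompact_frontier_of_bounded hUb).uniformContinuousAt_of_continuousAt g
    (fun x _ => by fun_prop) (dist_mem_uniformity (half_pos hη))
  obtain ⟨δ, hδ, hδ'⟩ := Metric.mem_uniformity_dist.1 hunif
  set ε := δ / 4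
  have hε : 0 < ε := by positivity
  set v := ballSup gu ε
  set p := ballSup (fun x => -gw x) ε
  have hgu' : Continuous gu := gu.continuous
  have hgw' : Continuous fun x => -gw x := gw.continuous.neg
  obtain ⟨x, hxK, hmax, hnot⟩ := exists_max_near_compl (U := U) (continuous_ballSup hgu' ε)
    (continuous_ballSup hgw' ε) hUb.isCompact_closure ⟨x₀, subset_closure hx₀⟩ subset_closure hε
    (fun a ha y hy => two_mul_ballSup_le hhu' hgu' hε ha hy)
    (fun a ha y hy => two_mul_ballSup_le hhw' hgw' hε ha hy)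
  -- a boundary point near the maximiser
  obtain ⟨z, hz, hxz⟩ : ∃ z ∈ frontier U, dist x z ≤ 2 * ε := by
    obtain ⟨a, ha, haU⟩ := not_subset.1 hnot
    by_cases hxU : x ∈ U
    · obtain ⟨z, hz, he⟩ := exists_mem_frontier_infDist_compl_eq_dist hxU
        (fun e => haU (e ▸ mem_univ a))
      exact ⟨z, hz, he ▸ (infDist_le_dist_of_mem haU).trans (mem_closedBall'.1 ha)⟩
    · exact ⟨x, by rw [hU.frontier_eq]; exact ⟨hxK, hxU⟩, by simp [hε.le]⟩
  obtain ⟨a, ha, hva⟩ := exists_eq_ballSup hgu' hε.le x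
  obtain ⟨b, hb, hpb⟩ := exists_eq_ballSup hgw' hε.le x
  rw [mem_closedBall'] at ha hb
  have hclose : ∀ q, dist x q ≤ ε → dist (g z) (g q) < η / 2 := fun q hq =>
    hδ' (lt_of_le_of_lt (dist_triangle z x q) (by rw [dist_comm z x]; simp only [ε] at *; linarith))
      hz
  have h1 := hclose a ha
  have h2 := hclose b hb
  simp only [g, Prod.dist_eq, Real.dist_eq, max_lt_iff, abs_lt] at h1 h2
  have h3 : gu x₀ ≤ v x₀ := le_ballSup hgu' (mem_closedBall_self hε.le)
  have h4 : -gw x₀ ≤ p x₀ := le_ballSup hgw' (mem_closedBall_self hε.le)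
  have h5 := hmax x₀ (subset_closure hx₀)
  have h6 := hbd z hz
  rw [← egu (subset_closure hx₀), ← egw (subset_closure hx₀)]
  rw [← egu (frontier_subset_closure hz), ← egw (frontier_subset_closure hz)] at h6
  simp only [v, p] at h3 h4 h5
  linarith

end Vale.Agent.P080C1
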