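import Vale.Agent.P080C1.Cones.Basic

/-!
Increasing slopes and the alternative between a smaller Lipschitz constant and flatness.
-/

noncomputable section

open Filter Topology Metric Set
open scoped RealInnerProductSpace

namespace Vale.Agent.P080C1

variable {O U : Set E3} {u : E3 → ℝ}

/-- A one-sided cone bound near a point bounds the derivative there. -/
theorem norm_fderiv_le_of_cone {y : E3} {K : ℝ} (hK : 0 ≤ K) (hd : DifferentiableAt ℝ u y)
    (hb : ∀ᶠ x in 𝓝 y, u x ≤ u y + K * ‖x - y‖) : ‖fderiv ℝ u y‖ ≤ K := by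
  have key : ∀ v : E3, fderiv ℝ u y v ≤ K * ‖v‖ := by
    intro v
    have hline : HasDerivAt (fun t : ℝ => u (y + t • v)) (fderiv ℝ u y v) 0 := by
      have hl : HasDerivAt (fun t : ℝ => y + t • v) v 0 := by
        simpa using ((hasDerivAt_id (0 : ℝ)).smul_const v).const_add y
      exact hd.hasFDerivAt.comp_hasDerivAt_of_eq (0 : ℝ) hl (by simp)
    have hlim := hline.tendsto_slope_zero.mono_left
      (nhdsWithin_mono (0 : ℝ) (s := Ioi (0 : ℝ)) fun t ht => (mem_Ioi.1 ht).ne')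
    refine le_of_tendsto hlim ?_
    have ht0 : Tendsto (fun t : ℝ => y + t • v) (𝓝[>] 0) (𝓝 y) := by
      have hc : Continuous fun t : ℝ => y + t • v := by fun_prop
      simpa using (hc.tendsto (0 : ℝ)).mono_left nhdsWithin_le_nhds
    filter_upwards [ht0.eventually hb, self_mem_nhdsWithin] with t ht (htp : 0 < t)
    rw [add_sub_cancel_left, norm_smul, Real.norm_eq_abs, abs_of_pos htp] at ht
    simp only [zero_add, zero_smul, add_zero, smul_eq_mul]
    rw [inv_mul_le_iff₀ htp]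
    linarith
  refine ContinuousLinearMap.opNorm_le_bound _ hK fun v => ?_
  rw [Real.norm_eq_abs, abs_le]
  refine ⟨?_, key v⟩
  have := key (-v)
  rw [map_neg, norm_neg] at this
  linarith

theorem coneSlopeProp : ConeSlopeProp := by
  intro O U u y hO h hU hUb hcl hy hd
  have hcpt := isCompact_frontier_of_bounded hUb
  have hsub : frontier U ⊆ O := frontier_subset_closure.trans hcl
  have hpos : ∀ z ∈ frontier U, 0 < ‖z - y‖ := fun z hz =>
    norm_pos_iff.2 (sub_ne_zero.2 fun e => not_mem_of_mem_frontier hU hz (e ▸ hy))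
  have hne : (frontier U).Nonempty := by
    refine nonempty_frontier_iff.2 ⟨⟨y, hy⟩, fun e => ?_⟩
    obtain ⟨r, hr⟩ := (e ▸ hUb : Bornology.IsBounded (univ : Set E3)).subset_closedBall 0
    have h1 := hr (mem_univ ((|r| + 1) • ee 0))
    simp [norm_smul, ee, abs_of_nonneg (by positivity : (0 : ℝ) ≤ |r| + 1)] at h1
    linarith [le_abs_self r]
  have hh := h.mono (subset_closure.trans hcl)
  rcases (norm_nonneg (fderiv ℝ u y)).eq_or_lt with h0 | h0
  · simp only [← h0, zero_mul, sub_nonneg]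
    obtain ⟨z, hz, hmax⟩ := hcpt.exists_isMaxOn hne (h.1.mono hsub)
    refine ⟨z, hz, le_of_forall_pos_le_add fun t ht => ?_⟩
    obtain ⟨r, hr⟩ := hUb.isCompact_closure.isBounded.subset_closedBall 0
    set p : E3 := (|r| + 1) • ee 0 with hp
    have hpU : p ∉ U := fun hpU => by
      have h1 := hr (subset_closure hpU)
      simp [p, norm_smul, ee, abs_of_nonneg (by positivity : (0 : ℝ) ≤ |r| + 1)] at h1
      linarith [le_abs_self r]
    have := cone_le hh hUb hU (h.1.mono hcl) (p := p) (c := u z)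
      (K := t / (‖y - p‖ + 1)) (by positivity)
      (fun w hw => le_add_of_le_of_nonneg (hmax hw) (by positivity))
      (fun hp' => absurd hp' hpU) y (subset_closure hy)
    have h2 : t / (‖y - p‖ + 1) * ‖y - p‖ ≤ t := by
      rw [div_mul_eq_mul_div, div_le_iff₀ (by positivity)]
      nlinarith [norm_nonneg (y - p)]
    linarith
  · by_contra hno
    simp only [not_exists, not_and, not_le] at hno
    have hcs : ContinuousOn (fun z => (u z - u y) / ‖z - y‖) (frontier U) :=
      ((h.1.mono hsub).sub continuousOn_const).div (by fun_prop) fun z hz => (hpos z hz).ne'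
    obtain ⟨z, hz, hmax⟩ := hcpt.exists_isMaxOn hne hcs
    set K := max 0 ((u z - u y) / ‖z - y‖)
    have hK : K < ‖fderiv ℝ u y‖ :=
      max_lt h0 (by rw [div_lt_iff₀ (hpos z hz)]; exact hno z hz)
    have hcone := cone_le hh hUb hU (h.1.mono hcl) (p := y) (c := u y) (K := K)
      (le_max_left _ _)
      (fun w hw => by
        have h1 : (u w - u y) / ‖w - y‖ ≤ K := (hmax hw).trans (le_max_right _ _)
        rw [div_le_iff₀ (hpos w hw)] at h1
        linarith)
      (fun _ => le_rfl)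
    exact absurd (norm_fderiv_le_of_cone (le_max_left _ _) hd
      (Filter.eventually_of_mem (hU.mem_nhds hy) fun w hw => hcone w (subset_closure hw)))
      (not_le.2 hK)

/-- The norm of a unit vector minus a vector, from above. -/
theorem norm_unit_sub_le {e : E3} (he : ‖e‖ = 1) (v : E3) :
    ‖e - v‖ ≤ 1 - ⟪e, v⟫ + ‖v‖ ^ 2 / 2 := by
  have h1 := real_inner_le_norm e v
  rw [he, one_mul] at h1
  refine le_of_sq_le_sq ?_ (by nlinarith [sq_nonneg (‖v‖ - 1), sq_nonneg ‖v‖])
  rw [norm_sub_sq_real, he]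
  nlinarith [sq_nonneg (⟪e, v⟫ - ‖v‖ ^ 2 / 2)]

/-- A steep pair of points contains arbitrarily short steep pairs. -/
theorem exists_short_steep {S : Set E3} (hS : Convex ℝ S) {a b : E3} (ha : a ∈ S) (hb : b ∈ S)
    {s d : ℝ} (hd : 0 < d) (hab : s * ‖b - a‖ < u b - u a) :
    ∃ a' ∈ S, ∃ b' ∈ S, ‖b' - a'‖ ≤ d ∧ s * ‖b' - a'‖ < u b' - u a' := by
  obtain ⟨N, hN⟩ := exists_nat_gt (‖b - a‖ / d)
  have hN0 : (0 : ℝ) < N := lt_of_le_of_lt (by positivity) hN
  set P : ℕ → E3 := fun k => a + ((k : ℝ) / N) • (b - a) with hP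
  have hlen : ∀ k, P (k + 1) - P k = (1 / (N : ℝ)) • (b - a) := fun k => by
    simp only [hP, add_sub_add_left_eq_sub, ← sub_smul]
    push_cast
    ring_nf
  have hmem : ∀ k, k ≤ N → P k ∈ S := fun k hk =>
    hS.add_smul_sub_mem ha hb
      ⟨by positivity, (div_le_one hN0).2 (by exact_mod_cast hk)⟩
  have hdist : ∀ k, ‖P (k + 1) - P k‖ = ‖b - a‖ / N := fun k => by
    rw [hlen, norm_smul, Real.norm_of_nonneg (by positivity)]
    ring
  by_contra hno
  simp only [not_exists, not_and, not_lt] at hno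
  have hstep : ∀ k ∈ Finset.range N, u (P (k + 1)) - u (P k) ≤ s * (‖b - a‖ / N) := by
    intro k hk
    rw [Finset.mem_range] at hk
    have h1 := hno (P k) (hmem k hk.le) (P (k + 1)) (hmem (k + 1) hk)
      (by rw [hdist, div_le_iff₀ hN0]; rw [div_lt_iff₀ hd] at hN; linarith)
    rwa [hdist] at h1
  have hsum := Finset.sum_le_sum hstep
  rw [Finset.sum_range_sub (fun k => u (P k)), Finset.sum_const, Finset.card_range,
    nsmul_eq_mul] at hsum
  have e1 : P N = b := by simp [hP, div_self hN0.ne']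
  have e2 : P 0 = a := by simp [hP]
  rw [e1, e2] at hsum
  have : (N : ℝ) * (s * (‖b - a‖ / N)) = s * ‖b - a‖ := by field_simp
  linarith

theorem alternativeProp : AlternativeProp := by
  intro τ hτ
  set ρ := min (1 / 4) (τ / 13)
  have hρ : 0 < ρ := lt_min (by norm_num) (by linarith)
  have hρ4 : ρ ≤ 1 / 4 := min_le_left _ _
  have hρτ : 13 * ρ ≤ τ := by linarith [min_le_right (1 / 4 : ℝ) (τ / 13)]
  refine ⟨ρ, ρ ^ 2, hρ, by linarith, by positivity, by nlinarith, fun u h hL => ?_⟩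
  have hs0 : 0 < 1 - ρ ^ 2 := by nlinarith
  by_cases hlip : LipschitzOnWith (Real.toNNReal (1 - ρ ^ 2)) u (ball 0 ρ)
  · exact Or.inl hlip
  right
  have hsteep : ∃ a ∈ ball (0 : E3) ρ, ∃ b ∈ ball (0 : E3) ρ,
      (1 - ρ ^ 2) * ‖b - a‖ < u b - u a := by
    by_contra hno
    simp only [not_exists, not_and, not_lt] at hno
    refine hlip (LipschitzOnWith.of_dist_le_mul fun a ha b hb => ?_)
    rw [Real.coe_toNNReal _ hs0.le, Real.dist_eq, dist_eq_norm, abs_le]
    have h1 := hno a ha b hb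
    have h2 := hno b hb a ha
    rw [norm_sub_rev b a] at h1
    constructor <;> linarith
  obtain ⟨a₀, ha₀, b₀, hb₀, h₀⟩ := hsteep
  obtain ⟨a, ha, b, hb, hd, hab⟩ :=
    exists_short_steep (convex_ball (0 : E3) ρ) ha₀ hb₀ (d := ρ ^ 2) (by positivity) h₀
  rw [mem_ball_zero_iff] at ha hb
  have hu : ∀ x ∈ ball (0 : E3) 2, ∀ y ∈ ball (0 : E3) 2, u x - u y ≤ ‖x - y‖ := by
    intro x hx y hy
    have := hL.dist_le_mul x hx y hy
    rw [Real.dist_eq, dist_eq_norm, NNReal.coe_one, one_mul] at this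
    exact (abs_le.1 this).2
  have hin : ∀ p : E3, ‖p‖ < ρ → closedBall p 1 ⊆ ball 0 2 := fun p hp x hx => by
    rw [mem_closedBall_iff_norm] at hx
    rw [mem_ball_zero_iff]
    linarith [norm_le_norm_add_norm_sub' x p]
  obtain ⟨P, hP, hPu⟩ := exists_sphere_slope h (a := a) (b := b) (R := 1) (by nlinarith)
    hs0 (hin a ha) hab
  obtain ⟨Q, hQ, hQu⟩ := exists_sphere_slope h.neg (a := b) (b := a) (R := 1)
    (by rw [norm_sub_rev]; nlinarith) hs0 (hin b hb) (by rw [norm_sub_rev]; linarith)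
  rw [mem_sphere_iff_norm] at hP hQ
  have hPB : P ∈ ball (0 : E3) 2 := hin a ha (mem_closedBall_iff_norm.2 hP.le)
  have hQB : Q ∈ ball (0 : E3) 2 := hin b hb (mem_closedBall_iff_norm.2 hQ.le)
  have hfn : ‖b - Q‖ = 1 := by rw [norm_sub_rev]; exact hQ
  have hba : u b - u a ≤ ρ ^ 2 := (hu b (mem_ball_zero_iff.2 (by linarith)) a
    (mem_ball_zero_iff.2 (by linarith))).trans hd
  -- the two directions nearly agree
  have hsum : 2 - 4 * ρ ^ 2 ≤ ‖(P - a) + (b - Q)‖ := by
    have h1 := hu P hPB Q hQB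
    have h2 : ‖P - Q‖ ≤ ‖(P - a) + (b - Q)‖ + ‖b - a‖ := by
      refine le_trans (le_of_eq ?_) (norm_sub_le _ _)
      congr 1
      abel
    linarith
  have hdiff : ‖(b - Q) - (P - a)‖ ≤ 4 * ρ := by
    have hp := parallelogram_law_with_norm ℝ (b - Q) (P - a)
    rw [hP, hfn, add_comm (b - Q) (P - a)] at hp
    refine le_of_sq_le_sq ?_ (by linarith)
    nlinarith [mul_le_mul hsum hsum (by nlinarith) (norm_nonneg _)]
  refine ⟨P - a, by rw [hP]; simpa using hτ.le, u a - ⟪P - a, a⟫, fun y hy => ?_⟩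
  rw [mem_closedBall_zero_iff] at hy
  have hyB : y ∈ ball (0 : E3) 2 := mem_ball_zero_iff.2 (by linarith)
  have hya : ‖y - a‖ ≤ 2 * ρ := by linarith [norm_sub_le y a]
  have hyb : ‖b - y‖ ≤ 2 * ρ := by linarith [norm_sub_le b y]
  have e1 : u y - (u a - ⟪P - a, a⟫ + ⟪P - a, y⟫) = u y - u a - ⟪P - a, y - a⟫ := by
    rw [inner_sub_right]; ring
  rw [e1, abs_le]
  constructor
  · have h1 := hu P hPB y hyB
    have h2 := norm_unit_sub_le hP (y - a)
    rw [sub_sub_sub_cancel_right] at h2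
    nlinarith [norm_nonneg (y - a)]
  · have h1 := hu y hyB Q hQB
    have h2 := norm_unit_sub_le hfn (b - y)
    rw [sub_sub_sub_cancel_left, inner_sub_right] at h2
    have h3 : ⟪b - Q, y⟫ - ⟪b - Q, b⟫ - ⟪P - a, y - a⟫ =
        ⟪(b - Q) - (P - a), y - a⟫ + ⟪b - Q, a - b⟫ := by
      simp only [inner_sub_left, inner_sub_right]
      ring
    have h4 : ⟪(b - Q) - (P - a), y - a⟫ ≤ 4 * ρ * (2 * ρ) :=
      (real_inner_le_norm _ _).trans (mul_le_mul hdiff hya (norm_nonneg _) (by linarith))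
    have h5 : ⟪b - Q, a - b⟫ ≤ ρ ^ 2 := by
      refine (real_inner_le_norm _ _).trans ?_
      rw [hfn, one_mul, norm_sub_rev]
      exact hd
    nlinarith [norm_nonneg (b - y)]

end Vale.Agent.P080C1
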